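import Vale.Agent.P017.R4.Defs
import Vale.Agent.P017.R3.H285.CellGen

/-!
# P017: cells for an abstract system, patterns with `(2/p)` (C4)
-/

open Finset

namespace Vale.Agent.P017.R4.H160

open Vale.Agent.P017.R3
open Vale.Agent.P017.R2.H985 (bit PF Pat sym Mat cork)
open Vale.Agent.P017.R3.H285 (All_nonneg bad_case step_data Tot_le_All card_pos All_cons)

/-- the symbols of `p` modulo the primes of `N`, together with `(2/p)` -/
def sy (N p : ℕ) : Pat N × ZMod 2 := (sym N p, bit 2 p)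

/-! ### Equidistribution -/

theorem sum_sy (l : ℝ) (j e N : ℕ) (G : Pat N × ZMod 2 → ℝ) :
    ∑ p ∈ Bx l j e, G (sy N p) =
      ∑ x : Pat N × ZMod 2, G x *
        (((Bx l j e).filter (fun p => sym N p = x.1 ∧ bit 2 p = x.2)).card : ℝ) := by
  have h1 : ∀ x : Pat N × ZMod 2,
      (((Bx l j e).filter (fun p => sym N p = x.1 ∧ bit 2 p = x.2)).card : ℝ) =
      ∑ p ∈ Bx l j e, if sy N p = x then 1 else 0 := by
    intro x
    rw [card_filter]
    push_cast
    refine sum_congr rfl fun p _ => ?_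
    have : (sym N p = x.1 ∧ bit 2 p = x.2) ↔ sy N p = x := by
      rw [sy, Prod.ext_iff]
    simp only [this]
  simp only [h1, mul_sum]
  rw [sum_comm]
  refine sum_congr rfl fun p _ => ?_
  simp

theorem lower8 {l δ : ℝ} {j e N : ℕ} (h : ¬ Bad8 l δ j e N) (G : Pat N × ZMod 2 → ℝ)
    (hG : ∀ x, 0 ≤ G x) :
    (1 - δ) * (Bx l j e).card * ∑ x, G x ≤
      (2 * Fintype.card (Pat N)) * ∑ p ∈ Bx l j e, G (sy N p) := by
  rw [sum_sy, mul_sum, mul_sum]
  refine sum_le_sum fun x _ => ?_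
  unfold Bad8 at h
  push Not at h
  have h1 := (abs_le.1 (h x.1 x.2)).1
  have h2 : (1 - δ) * (Bx l j e).card ≤ (2 * Fintype.card (Pat N)) *
      ((Bx l j e).filter (fun p => sym N p = x.1 ∧ bit 2 p = x.2)).card := by linarith
  calc (1 - δ) * (Bx l j e).card * G x ≤
      ((2 * Fintype.card (Pat N)) *
        ((Bx l j e).filter (fun p => sym N p = x.1 ∧ bit 2 p = x.2)).card) * G x :=
        mul_le_mul_of_nonneg_right h2 (hG x)
    _ = _ := by ring

theorem upper8 {l δ : ℝ} {j e N : ℕ} (h : ¬ Bad8 l δ j e N) (G : Pat N × ZMod 2 → ℝ)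
    (hG : ∀ x, 0 ≤ G x) :
    (2 * Fintype.card (Pat N)) * ∑ p ∈ Bx l j e, G (sy N p) ≤
      (1 + δ) * (Bx l j e).card * ∑ x, G x := by
  rw [sum_sy, mul_sum, mul_sum]
  refine sum_le_sum fun x _ => ?_
  unfold Bad8 at h
  push Not at h
  have h1 := (abs_le.1 (h x.1 x.2)).2
  have h2 : (2 * Fintype.card (Pat N)) *
      ((Bx l j e).filter (fun p => sym N p = x.1 ∧ bit 2 p = x.2)).card ≤
      (1 + δ) * (Bx l j e).card := by linarith
  calc (2 * Fintype.card (Pat N)) * (G x *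
        ((Bx l j e).filter (fun p => sym N p = x.1 ∧ bit 2 p = x.2)).card) =
      ((2 * Fintype.card (Pat N)) *
        ((Bx l j e).filter (fun p => sym N p = x.1 ∧ bit 2 p = x.2)).card) * G x := by ring
    _ ≤ _ := mul_le_mul_of_nonneg_right h2 (hG x)

theorem ExW8_bad {l δ : ℝ} {b : ℕ × ℕ} {bs : List (ℕ × ℕ)} {n : ℕ}
    (h : Bad8 l δ b.1 b.2 (Nat.lcm n 15)) : (All l (b :: bs) : ℝ) ≤ ExW8 l δ (b :: bs) n := by
  have : All l (b :: bs) ≤ ExW8 l δ (b :: bs) n := by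
    rw [ExW8.eq_2 l δ n b bs, if_pos h]
    omega
  exact_mod_cast this

theorem ExW8_sum (l δ : ℝ) (b : ℕ × ℕ) (bs : List (ℕ × ℕ)) (n : ℕ) :
    ∑ p ∈ Bx l b.1 b.2, (ExW8 l δ bs (n * p) : ℝ) ≤ ExW8 l δ (b :: bs) n := by
  have : ∑ p ∈ Bx l b.1 b.2, ExW8 l δ bs (n * p) ≤ ExW8 l δ (b :: bs) n := by
    rw [ExW8.eq_2 l δ n b bs]
    omega
  exact_mod_cast this

open Classical in
/-- (C4), upper bound -/
theorem tot_le8 {S : Sys} (hS : Hyp8 S) {l δ : ℝ} (hl : 1 < l) (hδ : 0 < δ) :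
    ∀ (bs : List (ℕ × ℕ)) (b : ℕ × ℕ),
    ((b :: bs).map Prod.fst).Pairwise (· < ·) → (∀ c ∈ b :: bs, c.2 = 1 ∨ c.2 = 3) →
    5 ≤ l ^ b.1 → ∀ n : ℕ, Squarefree n → Odd n →
    (∀ p ∈ n.primeFactors, (p : ℝ) ≤ l ^ b.1) →
    (S.Tot l (b :: bs) n : ℝ) ≤ (1 + δ) * ((All l (b :: bs) : ℝ) / 2 ^ S.fr n) +
      ExW8 l δ (b :: bs) n := by
  intro bs
  induction bs with
  | nil =>
    intro b _ hcl h5 n hs ho hq
    by_cases hbad : Bad8 l δ b.1 b.2 (Nat.lcm n 15)
    · have h1 : (S.Tot l [b] n : ℝ) ≤ All l [b] := by exact_mod_cast Tot_le_All S l [b] n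
      have h2 : (All l [b] : ℝ) ≤ ExW8 l δ [b] n := ExW8_bad hbad
      have h3 : (0 : ℝ) ≤ (1 + δ) * ((All l [b] : ℝ) / 2 ^ S.fr n) := by
        have := All_nonneg l [b]
        positivity
      linarith
    · obtain ⟨A, B, hA, hB, hA2, hB2⟩ := hS.base n hs ho b.2 (hcl b (List.mem_cons_self ..))
      have hup := upper8 hbad (fun x : Pat (Nat.lcm n 15) × ZMod 2 =>
        if x ∈ B then (1 : ℝ) else 0) (fun x => by split_ifs <;> norm_num)
      have hs1 : ∑ x : Pat (Nat.lcm n 15) × ZMod 2, (if x ∈ B then (1 : ℝ) else 0) = B.card := by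
        rw [sum_ite_mem, univ_inter, sum_const, nsmul_eq_mul, mul_one]
      rw [hs1] at hup
      have h1 : (S.Tot l [b] n : ℝ) ≤ ∑ p ∈ Bx l b.1 b.2,
          (if sy (Nat.lcm n 15) p ∈ B then (1 : ℝ) else 0) := by
        rw [Sys.Tot]
        push_cast
        refine sum_le_sum fun p hp => ?_
        obtain ⟨d1, d2, d3, d4, -⟩ := step_data hl h5 hs ho hq hp
        rw [Sys.Tot, apply_ite (Nat.cast : ℕ → ℝ), Nat.cast_one, Nat.cast_zero]
        by_cases c1 : S.OK (n * p)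
        · have c2 : sy (Nat.lcm n 15) p ∈ B := hB p d1 d2 d3 d4 c1
          rw [if_pos c1, if_pos c2]
        · rw [if_neg c1]
          split_ifs <;> norm_num
      have h2 : (All l [b] : ℝ) = (Bx l b.1 b.2).card := by
        rw [All_cons, All]
        push_cast
        ring
      have h4 : (0 : ℝ) ≤ ExW8 l δ [b] n := Nat.cast_nonneg _
      have hc : (0 : ℝ) < 2 * Fintype.card (Pat (Nat.lcm n 15)) := by
        have := card_pos (Nat.lcm n 15)
        positivity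
      have h7 : (S.Tot l [b] n : ℝ) ≤ (1 + δ) * ((Bx l b.1 b.2).card / 2 ^ S.fr n) := by
        refine le_of_mul_le_mul_left ?_ hc
        have h8 : (0 : ℝ) ≤ (1 + δ) * (Bx l b.1 b.2).card := by positivity
        calc (2 * Fintype.card (Pat (Nat.lcm n 15)) : ℝ) * S.Tot l [b] n ≤
            2 * Fintype.card (Pat (Nat.lcm n 15)) * ∑ p ∈ Bx l b.1 b.2,
              (if sy (Nat.lcm n 15) p ∈ B then (1 : ℝ) else 0) :=
              mul_le_mul_of_nonneg_left h1 hc.le
          _ ≤ (1 + δ) * (Bx l b.1 b.2).card * B.card := hup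
          _ ≤ (1 + δ) * (Bx l b.1 b.2).card *
              (2 * Fintype.card (Pat (Nat.lcm n 15)) / 2 ^ S.fr n) :=
              mul_le_mul_of_nonneg_left hB2 h8
          _ = _ := by ring
      rw [h2]
      linarith
  | cons b' bs ih =>
    intro b hpw hcl h5 n hs ho hq
    have hlt : b.1 < b'.1 := by
      simp only [List.map_cons, List.pairwise_cons, List.mem_cons] at hpw
      exact hpw.1 _ (Or.inl rfl)
    have hpw' : ((b' :: bs).map Prod.fst).Pairwise (· < ·) := by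
      rw [List.map_cons, List.pairwise_cons] at hpw
      exact hpw.2
    have hcl' : ∀ c ∈ b' :: bs, c.2 = 1 ∨ c.2 = 3 := fun c hc => hcl c (List.mem_cons_of_mem _ hc)
    have h5' : 5 ≤ l ^ b'.1 := h5.trans (pow_le_pow_right₀ hl.le hlt.le)
    have h1 : (S.Tot l (b :: b' :: bs) n : ℝ) =
        ∑ p ∈ Bx l b.1 b.2, (S.Tot l (b' :: bs) (n * p) : ℝ) := by
      rw [Sys.Tot]
      push_cast
      rfl
    have h3 := ExW8_sum l δ b (b' :: bs) n
    rw [h1]
    calc ∑ p ∈ Bx l b.1 b.2, (S.Tot l (b' :: bs) (n * p) : ℝ) ≤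
        ∑ p ∈ Bx l b.1 b.2, ((1 + δ) * ((All l (b' :: bs) : ℝ) / 2 ^ S.fr n) +
          ExW8 l δ (b' :: bs) (n * p)) := by
          refine sum_le_sum fun p hp => ?_
          obtain ⟨d1, d2, -, -, d3, d4, d5⟩ := step_data hl h5 hs ho hq hp
          have := ih b' hpw' hcl' h5' (n * p) d3 d4 (d5 _ hlt)
          rwa [hS.frp n p d1 d2] at this
      _ = (1 + δ) * ((All l (b :: b' :: bs) : ℝ) / 2 ^ S.fr n) +
          ∑ p ∈ Bx l b.1 b.2, (ExW8 l δ (b' :: bs) (n * p) : ℝ) := by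
          rw [sum_add_distrib, sum_const, nsmul_eq_mul, All_cons l b]
          ring
      _ ≤ _ := by linarith

open Classical in
/-- (C4), lower bound -/
theorem le_cnt8 {S : Sys} (hS : Hyp8 S) {l δ : ℝ} (hl : 1 < l) (hδ : 0 < δ) (hδ1 : δ < 1) :
    ∀ (bs : List (ℕ × ℕ)) (b : ℕ × ℕ),
    ((b :: bs).map Prod.fst).Pairwise (· < ·) → (∀ c ∈ b :: bs, c.2 = 1 ∨ c.2 = 3) →
    5 ≤ l ^ b.1 → ∀ n : ℕ, Squarefree n → Odd n →
    (∀ p ∈ n.primeFactors, (p : ℝ) ≤ l ^ b.1) →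
    (1 - δ) ^ (b :: bs).length * (S.f (((b :: bs).dropLast).map (fun c => eps c.2)) n *
      ((All l (b :: bs) : ℝ) / 2 ^ S.fr n)) - ExW8 l δ (b :: bs) n ≤ S.Cnt l (b :: bs) n := by
  intro bs
  induction bs with
  | nil =>
    intro b _ hcl h5 n hs ho hq
    have hf : (1 : ℝ) ≤ 2 ^ S.fr n := one_le_pow₀ (by norm_num)
    by_cases hbad : Bad8 l δ b.1 b.2 (Nat.lcm n 15)
    · exact bad_case hδ hδ1 (hS.range _ n).1 (hS.range _ n).2 (All_nonneg _ _) hf (ExW8_bad hbad)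
        (Nat.cast_nonneg _)
    · obtain ⟨A, B, hA, hB, hA2, hB2⟩ := hS.base n hs ho b.2 (hcl b (List.mem_cons_self ..))
      have hlo := lower8 hbad (fun x : Pat (Nat.lcm n 15) × ZMod 2 =>
        if x ∈ A then (1 : ℝ) else 0) (fun x => by split_ifs <;> norm_num)
      have hs1 : ∑ x : Pat (Nat.lcm n 15) × ZMod 2, (if x ∈ A then (1 : ℝ) else 0) = A.card := by
        rw [sum_ite_mem, univ_inter, sum_const, nsmul_eq_mul, mul_one]
      rw [hs1] at hlo
      have h1 : ∑ p ∈ Bx l b.1 b.2, (if sy (Nat.lcm n 15) p ∈ A then (1 : ℝ) else 0) ≤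
          (S.Cnt l [b] n : ℝ) := by
        rw [Sys.Cnt]
        push_cast
        refine sum_le_sum fun p hp => ?_
        obtain ⟨d1, d2, d3, d4, -⟩ := step_data hl h5 hs ho hq hp
        rw [Sys.Cnt, apply_ite (Nat.cast : ℕ → ℝ), Nat.cast_one, Nat.cast_zero]
        by_cases c1 : sy (Nat.lcm n 15) p ∈ A
        · rw [if_pos c1, if_pos (hA p d1 d2 d3 d4 c1)]
        · rw [if_neg c1]
          split_ifs <;> norm_num
      have h2 : (All l [b] : ℝ) = (Bx l b.1 b.2).card := by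
        rw [All_cons, All]
        push_cast
        ring
      have h4 : (0 : ℝ) ≤ ExW8 l δ [b] n := Nat.cast_nonneg _
      have hc : (0 : ℝ) < 2 * Fintype.card (Pat (Nat.lcm n 15)) := by
        have := card_pos (Nat.lcm n 15)
        positivity
      have h8 : (1 - δ) * (S.f [] n * ((Bx l b.1 b.2).card / 2 ^ S.fr n)) ≤ S.Cnt l [b] n := by
        refine le_of_mul_le_mul_left ?_ hc
        have h9 : (0 : ℝ) ≤ (1 - δ) * (Bx l b.1 b.2).card :=
          mul_nonneg (by linarith) (Nat.cast_nonneg _)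
        calc (2 * Fintype.card (Pat (Nat.lcm n 15)) : ℝ) *
            ((1 - δ) * (S.f [] n * ((Bx l b.1 b.2).card / 2 ^ S.fr n))) =
            (1 - δ) * (Bx l b.1 b.2).card *
              (S.f [] n * (2 * Fintype.card (Pat (Nat.lcm n 15)) / 2 ^ S.fr n)) := by ring
          _ ≤ (1 - δ) * (Bx l b.1 b.2).card * A.card := mul_le_mul_of_nonneg_left hA2 h9
          _ ≤ _ := hlo
          _ ≤ _ := mul_le_mul_of_nonneg_left h1 hc.le
      rw [h2]
      simp only [List.length_singleton, List.dropLast_singleton, List.map_nil, pow_one]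
      linarith
  | cons b' bs ih =>
    intro b hpw hcl h5 n hs ho hq
    have hf : (1 : ℝ) ≤ 2 ^ S.fr n := one_le_pow₀ (by norm_num)
    have hlt : b.1 < b'.1 := by
      simp only [List.map_cons, List.pairwise_cons, List.mem_cons] at hpw
      exact hpw.1 _ (Or.inl rfl)
    have hpw' : ((b' :: bs).map Prod.fst).Pairwise (· < ·) := by
      rw [List.map_cons, List.pairwise_cons] at hpw
      exact hpw.2
    have hcl' : ∀ c ∈ b' :: bs, c.2 = 1 ∨ c.2 = 3 := fun c hc => hcl c (List.mem_cons_of_mem _ hc)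
    have h5' : 5 ≤ l ^ b'.1 := h5.trans (pow_le_pow_right₀ hl.le hlt.le)
    have h1 : (S.Cnt l (b :: b' :: bs) n : ℝ) =
        ∑ p ∈ Bx l b.1 b.2, (S.Cnt l (b' :: bs) (n * p) : ℝ) := by
      rw [Sys.Cnt]
      push_cast
      rfl
    by_cases hbad : Bad8 l δ b.1 b.2 (Nat.lcm n 15)
    · exact bad_case hδ hδ1 (hS.range _ n).1 (hS.range _ n).2 (All_nonneg _ _) hf (ExW8_bad hbad)
        (Nat.cast_nonneg _)
    · have h3 := ExW8_sum l δ b (b' :: bs) n
      set E := ((b' :: bs).dropLast).map (fun c => eps c.2) with hE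
      have hE' : ((b :: b' :: bs).dropLast).map (fun c => eps c.2) = eps b.2 :: E := rfl
      obtain ⟨G, hG0, hG1, hG2⟩ := hS.step n hs ho E b.2 (hcl b (List.mem_cons_self ..))
      have hlo := lower8 hbad (fun x => G x.1 x.2) (fun x => hG0 x.1 x.2)
      rw [Fintype.sum_prod_type, hG2] at hlo
      have hc : (0 : ℝ) < 2 * Fintype.card (Pat (Nat.lcm n 15)) := by
        have := card_pos (Nat.lcm n 15)
        positivity
      have h8 : (1 - δ) * (Bx l b.1 b.2).card * S.f (eps b.2 :: E) n ≤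
          ∑ p ∈ Bx l b.1 b.2, G (sym (Nat.lcm n 15) p) (bit 2 p) := by
        refine le_of_mul_le_mul_left ?_ hc
        calc (2 * Fintype.card (Pat (Nat.lcm n 15)) : ℝ) *
            ((1 - δ) * (Bx l b.1 b.2).card * S.f (eps b.2 :: E) n) =
            (1 - δ) * (Bx l b.1 b.2).card *
              (2 * Fintype.card (Pat (Nat.lcm n 15)) * S.f (eps b.2 :: E) n) := by ring
          _ ≤ _ := hlo
      have h11 : ∑ p ∈ Bx l b.1 b.2, S.f E (n * p) =
          ∑ p ∈ Bx l b.1 b.2, G (sym (Nat.lcm n 15) p) (bit 2 p) := by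
        refine sum_congr rfl fun p hp => ?_
        obtain ⟨d1, d2, d3, d4, -⟩ := step_data hl h5 hs ho hq hp
        exact hG1 p d1 d2 d3 d4
      rw [h1, hE']
      have h12 : ∑ p ∈ Bx l b.1 b.2, ((1 - δ) ^ (b' :: bs).length * (S.f E (n * p) *
          ((All l (b' :: bs) : ℝ) / 2 ^ S.fr n)) - ExW8 l δ (b' :: bs) (n * p)) ≤
          ∑ p ∈ Bx l b.1 b.2, (S.Cnt l (b' :: bs) (n * p) : ℝ) := by
        refine sum_le_sum fun p hp => ?_
        obtain ⟨d1, d2, -, -, d3, d4, d5⟩ := step_data hl h5 hs ho hq hp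
        have := ih b' hpw' hcl' h5' (n * p) d3 d4 (d5 _ hlt)
        rwa [hS.frp n p d1 d2] at this
      refine le_trans ?_ h12
      rw [sum_sub_distrib, ← mul_sum, ← sum_mul, h11, List.length_cons, pow_succ, All_cons l b]
      have h13 : 0 ≤ (1 - δ) ^ (b' :: bs).length := pow_nonneg (by linarith) _
      have h14 : 0 ≤ (All l (b' :: bs) : ℝ) / 2 ^ S.fr n := by
        have := All_nonneg l (b' :: bs)
        positivity
      have h15 := mul_le_mul_of_nonneg_left (mul_le_mul_of_nonneg_right h8 h14) h13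
      have h16 : (1 - δ) ^ (b' :: bs).length * (1 - δ) *
          (S.f (eps b.2 :: E) n * ((Bx l b.1 b.2).card * (All l (b' :: bs) : ℝ) / 2 ^ S.fr n)) =
          (1 - δ) ^ (b' :: bs).length * ((1 - δ) * (Bx l b.1 b.2).card * S.f (eps b.2 :: E) n *
            ((All l (b' :: bs) : ℝ) / 2 ^ S.fr n)) := by ring
      rw [h16]
      linarith

/-- (C4) -/
theorem stmtCellGen8 : StmtCellGen8 := by
  intro S hS l δ hl hδ hδ1 b bs hpw hcl h5 n hs ho hq
  exact ⟨le_cnt8 hS hl hδ hδ1 bs b hpw hcl h5 n hs ho hq,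
    tot_le8 hS hl hδ bs b hpw hcl h5 n hs ho hq⟩

end Vale.Agent.P017.R4.H160
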