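import Vale.Agent.P017.R4.Defs2
import Vale.Agent.P017.R3.H916.LA1

/-!
# P017: transition probabilities of the corank with a special column (L1)
-/

open Finset

namespace Vale.Agent.P017.R4.H160

open Vale.Agent.P017.R3
open Vale.Agent.P017.R3.H916 (functional_eq card_submodule Bp Bp_iff sum_AB sum_AnB sum_nAB
  sum_nAnB finrank_fun finrank_range finrank_range_transpose dot_transpose real_pow card_B)

section

variable {V : Type} [Fintype V] [DecidableEq V]

theorem card_fiber {W : Type} [AddCommGroup W] [Module (ZMod 2) W]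
    (Ψ : (V → ZMod 2) →ₗ[ZMod 2] W) (hΨ : Function.Surjective Ψ) (c : W) {k : ℕ}
    (hk : Module.finrank (ZMod 2) W = k) (p : (V → ZMod 2) → Prop) [DecidablePred p]
    (hp : ∀ φ, p φ ↔ Ψ φ = c) :
    ((univ.filter p).card : ℝ) = 2 ^ Fintype.card V * (1 / 2 : ℝ) ^ k := by
  classical
  obtain ⟨φ0, h0⟩ := hΨ c
  have h1 : (univ.filter p).card = (univ.filter fun φ => φ ∈ LinearMap.ker Ψ).card := by
    apply Finset.card_equiv (Equiv.subRight φ0)
    intro φ
    simp only [Finset.mem_filter, Finset.mem_univ, true_and, Equiv.subRight_apply]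
    rw [hp, LinearMap.mem_ker, map_sub, h0, sub_eq_zero]
  have h2 : Module.finrank (ZMod 2) (LinearMap.ker Ψ) + k = Fintype.card V := by
    have h3 := LinearMap.finrank_range_add_finrank_ker Ψ
    rw [LinearMap.range_eq_top.2 hΨ, finrank_top, hk, finrank_fun] at h3
    omega
  rw [h1, card_submodule (LinearMap.ker Ψ) _ (fun φ => Iff.rfl), real_pow h2]
  push_cast
  rfl

/-- the projection away from the special index -/
def pr (tw : V → ZMod 2) : (V → ZMod 2) →ₗ[ZMod 2] (V → ZMod 2) where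
  toFun φ := cl 0 tw φ
  map_add' φ ψ := by
    funext a
    simp only [cl, Pi.add_apply]
    split_ifs <;> simp
  map_smul' t φ := by
    funext a
    simp only [cl, Pi.smul_apply, smul_eq_mul, RingHom.id_apply]
    split_ifs <;> simp

omit [Fintype V] [DecidableEq V] in
theorem cl_eq (e : ZMod 2) (tw φ : V → ZMod 2) : pr tw φ + cl e tw 0 = cl e tw φ := by
  funext a
  change cl 0 tw φ a + cl e tw 0 a = cl e tw φ a
  simp only [cl, Pi.zero_apply]
  split_ifs <;> simp

/-- column space and row space -/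
noncomputable def Ph (M : Matrix V V (ZMod 2)) (tw : V → ZMod 2) : (V → ZMod 2) →ₗ[ZMod 2]
    ((V → ZMod 2) ⧸ LinearMap.range M.mulVecLin) ×
      ((V → ZMod 2) ⧸ LinearMap.range M.transpose.mulVecLin) :=
  ((LinearMap.range M.mulVecLin).mkQ ∘ₗ pr tw).prod (LinearMap.range M.transpose.mulVecLin).mkQ

theorem Ph_surj {M : Matrix V V (ZMod 2)} {tw : V → ZMod 2} (h : sp3 M tw = 0) :
    Function.Surjective (Ph M tw) := by
  rw [← LinearMap.range_eq_top]
  by_contra hn
  obtain ⟨f, hf, hle⟩ := Submodule.exists_le_ker_of_lt_top _ (lt_top_iff_ne_top.2 hn)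
  obtain ⟨x, hx⟩ := functional_eq
    (f ∘ₗ LinearMap.inl (ZMod 2) _ _ ∘ₗ (LinearMap.range M.mulVecLin).mkQ)
  obtain ⟨y, hy⟩ := functional_eq
    (f ∘ₗ LinearMap.inr (ZMod 2) _ _ ∘ₗ (LinearMap.range M.transpose.mulVecLin).mkQ)
  have hx' : ∀ a, f ((LinearMap.range M.mulVecLin).mkQ a, 0) = dotProduct x a := hx
  have hy' : ∀ b, f (0, (LinearMap.range M.transpose.mulVecLin).mkQ b) = dotProduct y b := hy
  have hxy : ∀ a b, f ((LinearMap.range M.mulVecLin).mkQ a,
      (LinearMap.range M.transpose.mulVecLin).mkQ b) = dotProduct x a + dotProduct y b := by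
    intro a b
    rw [← hx', ← hy', ← map_add, Prod.mk_add_mk, add_zero, zero_add]
  have hL : M.vecMul x = 0 := by
    funext i
    have h1 : f ((LinearMap.range M.mulVecLin).mkQ (M.mulVec (Pi.single i 1)), 0) = 0 := by
      have h2 : (LinearMap.range M.mulVecLin).mkQ (M.mulVec (Pi.single i 1)) = 0 := by
        rw [Submodule.mkQ_apply, Submodule.Quotient.mk_eq_zero]
        exact ⟨Pi.single i 1, rfl⟩
      rw [h2]
      exact map_zero f
    rw [hx', Matrix.dotProduct_mulVec] at h1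
    simpa using h1
  have hR : M.mulVec y = 0 := by
    funext i
    have h1 : f (0, (LinearMap.range M.transpose.mulVecLin).mkQ
        (M.transpose.mulVec (Pi.single i 1))) = 0 := by
      have h2 : (LinearMap.range M.transpose.mulVecLin).mkQ
          (M.transpose.mulVec (Pi.single i 1)) = 0 := by
        rw [Submodule.mkQ_apply, Submodule.Quotient.mk_eq_zero]
        exact ⟨Pi.single i 1, rfl⟩
      rw [h2]
      exact map_zero f
    rw [hy', dot_transpose] at h1
    simpa using h1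
  have hxx : y = cl 0 tw x := by
    funext i
    have h1 : f (Ph M tw (Pi.single i 1)) = 0 := by
      have : Ph M tw (Pi.single i 1) ∈ LinearMap.ker f := hle ⟨_, rfl⟩
      exact this
    have h2 : Ph M tw (Pi.single i 1) = ((LinearMap.range M.mulVecLin).mkQ
        (pr tw (Pi.single i 1)), (LinearMap.range M.transpose.mulVecLin).mkQ (Pi.single i 1)) :=
      rfl
    rw [h2, hxy] at h1
    have h3 : dotProduct x (pr tw (Pi.single i 1)) = cl 0 tw x i := by
      change dotProduct x (cl 0 tw (Pi.single i 1)) = cl 0 tw x i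
      unfold cl dotProduct
      rw [Finset.sum_eq_single i]
      · simp
      · intro b _ hb
        simp [Pi.single_eq_of_ne hb]
      · intro hi
        exact absurd (Finset.mem_univ i) hi
    have h4 : dotProduct y (Pi.single i 1) = y i := by simp
    rw [h3, h4] at h1
    have h5 : ∀ s t : ZMod 2, s + t = 0 → t = s := by decide
    exact h5 _ _ h1
  have hx0 : x = 0 := by
    by_contra hne
    unfold sp3 at h
    rw [Finset.card_eq_zero, Finset.filter_eq_empty_iff] at h
    exact h (Finset.mem_univ x) ⟨hne, hL, by rw [← hxx]; exact hR⟩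
  have hy0 : y = 0 := by
    rw [hxx, hx0]
    funext a
    simp [cl]
  apply hf
  refine LinearMap.ext fun z => ?_
  obtain ⟨z1, z2⟩ := z
  obtain ⟨a, rfl⟩ := Submodule.mkQ_surjective _ z1
  obtain ⟨b, rfl⟩ := Submodule.mkQ_surjective _ z2
  rw [hxy, hx0, hy0, zero_dotProduct, zero_dotProduct, add_zero]
  rfl

theorem finrank_q1 (M : Matrix V V (ZMod 2)) :
    Module.finrank (ZMod 2) ((V → ZMod 2) ⧸ LinearMap.range M.mulVecLin) = ck M := by
  have h1 := Submodule.finrank_quotient_add_finrank (LinearMap.range M.mulVecLin)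
  have h2 := finrank_range M
  rw [finrank_fun] at h1
  omega

theorem finrank_q2 (M : Matrix V V (ZMod 2)) :
    Module.finrank (ZMod 2) ((V → ZMod 2) ⧸ LinearMap.range M.transpose.mulVecLin) = ck M := by
  have h1 := Submodule.finrank_quotient_add_finrank (LinearMap.range M.transpose.mulVecLin)
  have h2 := finrank_range_transpose M
  rw [finrank_fun] at h1
  omega

theorem condA (M : Matrix V V (ZMod 2)) (tw : V → ZMod 2) (e : ZMod 2) (φ : V → ZMod 2) :
    (∃ x0, M.mulVec x0 = cl e tw φ) ↔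
      (LinearMap.range M.mulVecLin).mkQ (pr tw φ) =
        (LinearMap.range M.mulVecLin).mkQ (-cl e tw 0) := by
  rw [Submodule.mkQ_apply, Submodule.mkQ_apply, Submodule.Quotient.eq, sub_neg_eq_add, cl_eq,
    LinearMap.mem_range]
  rfl

theorem condB (M : Matrix V V (ZMod 2)) (ν φ : V → ZMod 2) : Bp M (φ + ν) ↔
      (LinearMap.range M.transpose.mulVecLin).mkQ φ =
        (LinearMap.range M.transpose.mulVecLin).mkQ (-ν) := by
  rw [Submodule.mkQ_apply, Submodule.mkQ_apply, Submodule.Quotient.eq, sub_neg_eq_add, Bp_iff]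

open Classical in
theorem card_A' {M : Matrix V V (ZMod 2)} {tw : V → ZMod 2} (h : sp3 M tw = 0) (e : ZMod 2) :
    ((univ.filter fun φ : V → ZMod 2 => ∃ x0, M.mulVec x0 = cl e tw φ).card : ℝ) =
      2 ^ Fintype.card V * (1 / 2 : ℝ) ^ ck M := by
  refine card_fiber ((LinearMap.range M.mulVecLin).mkQ ∘ₗ pr tw) ?_
    ((LinearMap.range M.mulVecLin).mkQ (-cl e tw 0)) (finrank_q1 M) _ (fun φ => condA M tw e φ)
  intro z
  obtain ⟨φ, hφ⟩ := Ph_surj h (z, 0)
  exact ⟨φ, congrArg Prod.fst hφ⟩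

open Classical in
theorem card_AB' {M : Matrix V V (ZMod 2)} {tw : V → ZMod 2} (h : sp3 M tw = 0) (e : ZMod 2)
    (ν : V → ZMod 2) :
    ((univ.filter fun φ : V → ZMod 2 =>
      (∃ x0, M.mulVec x0 = cl e tw φ) ∧ Bp M (φ + ν)).card : ℝ) =
      2 ^ Fintype.card V * (1 / 2 : ℝ) ^ (2 * ck M) := by
  refine card_fiber (Ph M tw) (Ph_surj h) ((LinearMap.range M.mulVecLin).mkQ (-cl e tw 0),
    (LinearMap.range M.transpose.mulVecLin).mkQ (-ν)) ?_ _ (fun φ => ?_)
  · rw [Module.finrank_prod, finrank_q1, finrank_q2, two_mul]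
  · rw [condA, condB, Prod.ext_iff]
    rfl

theorem la1 (M : Matrix V V (ZMod 2)) (ν tw : V → ZMod 2) (e : ZMod 2) (h : sp3 M tw = 0)
    (f : ℕ → ℝ) :
    ∑ φ : V → ZMod 2, ∑ w : ZMod 2, f (ck (ext M (cl e tw φ) (φ + ν) w)) =
    2 ^ (Fintype.card V + 1) * ((1 - (1 / 2 : ℝ) ^ ck M) ^ 2 * f (ck M - 1) +
      (1 - (1 - (1 / 2 : ℝ) ^ ck M) ^ 2 - (1 / 2 : ℝ) ^ (2 * ck M + 1)) * f (ck M) +
      (1 / 2 : ℝ) ^ (2 * ck M + 1) * f (ck M + 1)) := by
  classical
  have key : ∀ φ : V → ZMod 2, ∑ w : ZMod 2, f (ck (ext M (cl e tw φ) (φ + ν) w)) =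
      2 * f (ck M - 1) +
      (if (∃ x0, M.mulVec x0 = cl e tw φ) then (1 : ℝ) else 0) *
        (2 * f (ck M) - 2 * f (ck M - 1)) +
      (if Bp M (φ + ν) then (1 : ℝ) else 0) * (2 * f (ck M) - 2 * f (ck M - 1)) +
      (if ((∃ x0, M.mulVec x0 = cl e tw φ) ∧ Bp M (φ + ν)) then (1 : ℝ) else 0) *
        (f (ck M + 1) - 3 * f (ck M) + 2 * f (ck M - 1)) := by
    intro φ
    by_cases hA : ∃ x0, M.mulVec x0 = cl e tw φ <;> by_cases hB : Bp M (φ + ν)
    · rw [sum_AB hA hB, if_pos hA, if_pos hB, if_pos ⟨hA, hB⟩]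
      ring
    · rw [sum_AnB hA hB, if_pos hA, if_neg hB, if_neg (fun h => hB h.2)]
      ring
    · rw [sum_nAB hA hB, if_neg hA, if_pos hB, if_neg (fun h => hA h.1)]
      ring
    · rw [sum_nAnB hA hB, if_neg hA, if_neg hB, if_neg (fun h => hA h.1)]
      ring
  rw [Finset.sum_congr rfl fun φ _ => key φ, Finset.sum_add_distrib, Finset.sum_add_distrib,
    Finset.sum_add_distrib, ← Finset.sum_mul, ← Finset.sum_mul, ← Finset.sum_mul, ← Finset.sum_mul,
    Finset.sum_boole, Finset.sum_boole, Finset.sum_boole, card_A' h, card_B, card_AB' h,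
    Finset.sum_const, Finset.card_univ, Fintype.card_fun, ZMod.card, nsmul_eq_mul]
  push_cast
  rw [pow_succ (2 : ℝ), pow_succ (1 / 2 : ℝ), mul_comm 2 (ck M), pow_mul]
  ring

end

/-- (L1) -/
theorem stmtLA1' : StmtLA1' := by
  intro V _ _ M μ st e _ h f
  exact la1 M (e • μ) st e h f

end Vale.Agent.P017.R4.H160
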