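import Vale.Agent.P017.R4.H160.RM5
import Vale.Agent.P017.R4.H160.LA1
import Vale.Agent.P017.R4.H237.LA

/-!
# P017: random matrices with two special indices, unconditional
-/

open Finset

namespace Vale.Agent.P017.R4.H160

open Vale.Agent.P017.R3

/-- (L') -/
theorem stmtRM5 : StmtRM5 :=
  stmtRM5_of (fun V _ _ M ν tw e _ h f => la1 M ν tw e h f)
    (fun V _ _ M ν tw e h => Vale.Agent.P017.R4.H237.la2 M ν tw e h)
    (fun V _ _ M μ st tw e χ h => Vale.Agent.P017.R4.H237.la3 M μ st tw e χ h)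

/-- (L4) -/
theorem stmtRM3 : StmtRM3 := stmtRM3_of stmtRM5

/-- (L5) -/
theorem stmtL5 : StmtL5 := fun _ _ _ => stmtRM3

end Vale.Agent.P017.R4.H160
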