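import Vale.Agent.P017.R4.Defs2
import Vale.Agent.P017.R3.H285.RMg
import Vale.Agent.P017.R3.H916.LA1

/-!
# P017: random matrices with two special indices (L5)

The three facts of linear algebra are taken in the general form `LG1`, `LG2`, `LG3` (the new column
is `φ`, but `e` at the index `tw`; the new row is `φ + ν`); they give `StmtRM5`, and `StmtRM3` is the
case `st = 0`.
-/

open Finset

namespace Vale.Agent.P017.R4.H160

open Vale.Agent.P017.R3
open Vale.Agent.P017.R3.H285 (P_zero eta_nonneg Hk Hk_le_one Hk_step Hk_ge ones ones_ext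
  sum_const3 eta_le_one)

/-- transition probabilities of the corank -/
def LG1 : Prop := ∀ (V : Type) [Fintype V] [DecidableEq V] (M : Matrix V V (ZMod 2))
  (ν tw : V → ZMod 2) (e : ZMod 2), (∀ a b, tw a = 1 → tw b = 1 → a = b) →
  sp3 M tw = 0 → ∀ f : ℕ → ℝ,
  ∑ φ : V → ZMod 2, ∑ w : ZMod 2, f (ck (ext M (cl e tw φ) (φ + ν) w)) =
    2 ^ (Fintype.card V + 1) * ((1 - (1 / 2 : ℝ) ^ ck M) ^ 2 * f (ck M - 1) +
      (1 - (1 - (1 / 2 : ℝ) ^ ck M) ^ 2 - (1 / 2 : ℝ) ^ (2 * ck M + 1)) * f (ck M) +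
      (1 / 2 : ℝ) ^ (2 * ck M + 1) * f (ck M + 1))

/-- drift -/
def LG2 : Prop := ∀ (V : Type) [Fintype V] [DecidableEq V] (M : Matrix V V (ZMod 2))
  (ν tw : V → ZMod 2) (e : ZMod 2), (∀ a b, tw a = 1 → tw b = 1 → a = b) →
  ∑ φ : V → ZMod 2, ∑ w : ZMod 2, (2 : ℝ) ^ ck (ext M (cl e tw φ) (φ + ν) w) ≤
    2 ^ (Fintype.card V + 1) * ((2 : ℝ) ^ ck M / 2 + 3 / 2)

/-- exceptional vectors -/
def LG3 : Prop := ∀ (V : Type) [Fintype V] [DecidableEq V] (M : Matrix V V (ZMod 2))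
  (μ st tw : V → ZMod 2) (e χ : ZMod 2), Rec5 M μ st tw →
  ∑ φ : V → ZMod 2, ∑ w : ZMod 2,
      (sp3 (ext M (cl e tw φ) (φ + (e • μ + χ • st)) w) (extv tw 0) : ℝ) ≤
    2 ^ (Fintype.card V + 1) * ((sp3 M tw : ℝ) / 2 +
      (1 / 2 : ℝ) ^ (univ.filter fun a => μ a = 1).card)

variable {V : Type} [Fintype V] [DecidableEq V]

theorem prob5_nil (M : Matrix V V (ZMod 2)) (μ st tw : V → ZMod 2) :
    prob5 [] V M μ st tw = if ck M = 0 then 1 else 0 := by rw [prob5]

theorem prob5_cons (e : ZMod 2) (ε : List (ZMod 2)) (M : Matrix V V (ZMod 2))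
    (μ st tw : V → ZMod 2) :
    prob5 (e :: ε) V M μ st tw = (∑ χ : ZMod 2, ∑ φ : V → ZMod 2, ∑ w : ZMod 2,
      prob5 ε (Option V) (ext M (cl e tw φ) (φ + (e • μ + χ • st)) w) (extv μ e) (extv st 0)
        (extv tw 0)) / 2 ^ (Fintype.card V + 2) := by
  rw [prob5]
  congr 1
  rw [sum_comm (s := (univ : Finset (ZMod 2)))]
  exact sum_congr rfl fun φ _ => sum_comm

theorem prob5_nonneg : ∀ (ε : List (ZMod 2)) (V : Type) [Fintype V] [DecidableEq V]
    (M : Matrix V V (ZMod 2)) (μ st tw : V → ZMod 2), 0 ≤ prob5 ε V M μ st tw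
  | [], V, _, _, M, μ, st, tw => by
    rw [prob5_nil]; split_ifs <;> norm_num
  | e :: ε, V, _, _, M, μ, st, tw => by
    rw [prob5_cons]
    exact div_nonneg (sum_nonneg fun χ _ => sum_nonneg fun φ _ => sum_nonneg fun w _ =>
      prob5_nonneg ε _ _ _ _ _) (by positivity)

theorem z1 : (0 : ZMod 2) ≠ 1 := by decide

omit [Fintype V] [DecidableEq V] in
theorem one_ext {tw : V → ZMod 2} (h : ∀ a b, tw a = 1 → tw b = 1 → a = b) :
    ∀ a b, extv tw 0 a = 1 → extv tw 0 b = 1 → a = b := by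
  intro a b ha hb
  rcases a with _ | a
  · exact absurd (show (0 : ZMod 2) = 1 from ha) z1
  · rcases b with _ | b
    · exact absurd (show (0 : ZMod 2) = 1 from hb) z1
    · rw [h a b ha hb]

omit [Fintype V] [DecidableEq V] in
theorem rec5_ext {M : Matrix V V (ZMod 2)} {μ st tw : V → ZMod 2} (h : Rec5 M μ st tw)
    (φ : V → ZMod 2) (e χ w : ZMod 2) :
    Rec5 (ext M (cl e tw φ) (φ + (e • μ + χ • st)) w) (extv μ e) (extv st 0) (extv tw 0) := by
  have h2 : ∀ x : ZMod 2, x + x = 0 := by decide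
  have hcl : ∀ a, tw a = 0 → cl e tw φ a = φ a := fun a ha => by
    unfold cl
    rw [if_neg (by rw [ha]; exact z1)]
  refine ⟨?_, ?_, one_ext h.one, one_ext h.one', ?_, ?_, ?_⟩
  · intro a b hab ha hb ha' hb'
    rcases a with _ | a <;> rcases b with _ | b
    · exact absurd rfl hab
    · change (φ + (e • μ + χ • st)) b + cl e tw φ b = e * μ b
      rw [hcl b hb']
      have := h2 (φ b)
      have hb0 : st b = 0 := hb
      simp only [Pi.add_apply, Pi.smul_apply, smul_eq_mul, hb0]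
      linear_combination this
    · change cl e tw φ a + (φ + (e • μ + χ • st)) a = μ a * e
      rw [hcl a ha']
      have := h2 (φ a)
      have ha0 : st a = 0 := ha
      simp only [Pi.add_apply, Pi.smul_apply, smul_eq_mul, ha0]
      linear_combination this
    · exact h.recip a b (fun hh => hab (by rw [hh])) ha hb ha' hb'
  · intro a b ha hab
    rcases a with _ | a
    · exact absurd (show (0 : ZMod 2) = 1 from ha) z1
    · have ha1 : tw a = 1 := ha
      rcases b with _ | b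
      · change cl e tw φ a = e
        unfold cl
        rw [if_pos ha1]
      · exact h.row a b ha1 (fun hh => hab (by rw [hh]))
  · intro a ha
    rcases a with _ | a
    · exact absurd (show (0 : ZMod 2) = 1 from ha) z1
    · exact h.zero a ha
  · intro a ha
    rcases a with _ | a
    · exact absurd (show (0 : ZMod 2) = 1 from ha) z1
    · exact h.zero' a ha
  · intro a ha
    rcases a with _ | a
    · exact absurd (show (0 : ZMod 2) = 1 from ha) z1
    · exact h.disj a ha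

/-- a lower bound of the probability for all matrices -/
def Low5 (ε : List (ZMod 2)) (α β γ δ : ℝ) : Prop := ∀ (V : Type) [Fintype V] [DecidableEq V]
  (M : Matrix V V (ZMod 2)) (μ st tw : V → ZMod 2), Rec5 M μ st tw →
  α - β * 2 ^ ck M - γ * sp3 M tw - δ * (1 / 2) ^ ones μ ≤ prob5 ε V M μ st tw

theorem low5_cons (h2 : LG2) (h3 : LG3) {ε : List (ZMod 2)} {α β γ δ : ℝ} (hβ : 0 ≤ β)
    (hγ : 0 ≤ γ) (h : Low5 ε α β γ δ) (e : ZMod 2) :
    Low5 (e :: ε) (α - 3 / 2 * β) (β / 2) (γ / 2) (γ + δ * (if e = 1 then 1 / 2 else 1)) := by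
  intro V _ _ M μ st tw hR
  rw [prob5_cons, le_div_iff₀ (by positivity)]
  have k1 : ∑ χ : ZMod 2, ∑ φ : V → ZMod 2, ∑ w : ZMod 2,
      (α - β * 2 ^ ck (ext M (cl e tw φ) (φ + (e • μ + χ • st)) w) -
        γ * sp3 (ext M (cl e tw φ) (φ + (e • μ + χ • st)) w) (extv tw 0) -
        δ * (1 / 2) ^ ones (extv μ e)) ≤
      ∑ χ : ZMod 2, ∑ φ : V → ZMod 2, ∑ w : ZMod 2,
        prob5 ε (Option V) (ext M (cl e tw φ) (φ + (e • μ + χ • st)) w) (extv μ e) (extv st 0)
          (extv tw 0) :=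
    sum_le_sum fun χ _ => sum_le_sum fun φ _ => sum_le_sum fun w _ =>
      h _ _ _ _ _ (rec5_ext hR φ e χ w)
  refine le_trans ?_ k1
  simp only [sum_sub_distrib, ← mul_sum, sum_const3]
  have k2 : ∑ χ : ZMod 2, ∑ φ : V → ZMod 2, ∑ w : ZMod 2,
      (2 : ℝ) ^ ck (ext M (cl e tw φ) (φ + (e • μ + χ • st)) w) ≤
      2 ^ (Fintype.card V + 2) * ((2 : ℝ) ^ ck M / 2 + 3 / 2) := by
    refine (sum_le_sum fun χ _ => h2 V M (e • μ + χ • st) tw e hR.one').trans (le_of_eq ?_)
    rw [sum_const, card_univ, ZMod.card, nsmul_eq_mul]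
    push_cast
    ring
  have k3 : ∑ χ : ZMod 2, ∑ φ : V → ZMod 2, ∑ w : ZMod 2,
      (sp3 (ext M (cl e tw φ) (φ + (e • μ + χ • st)) w) (extv tw 0) : ℝ) ≤
      2 ^ (Fintype.card V + 2) * ((sp3 M tw : ℝ) / 2 + (1 / 2 : ℝ) ^ ones μ) := by
    refine (sum_le_sum fun χ _ => h3 V M μ st tw e χ hR).trans (le_of_eq ?_)
    rw [sum_const, card_univ, ZMod.card, nsmul_eq_mul]
    have k4 : (1 / 2 : ℝ) ^ (univ.filter fun a => μ a = 1).card = (1 / 2 : ℝ) ^ ones μ := rfl
    rw [k4]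
    push_cast
    ring
  rw [ones_ext]
  have k5 := mul_le_mul_of_nonneg_left k2 hβ
  have k6 := mul_le_mul_of_nonneg_left k3 hγ
  have k7 : (0 : ℝ) < 2 ^ (Fintype.card V + 2) := by positivity
  nlinarith

theorem low5_append (h2 : LG2) (h3 : LG3) {ε₂ : List (ZMod 2)} {α β γ δ : ℝ}
    (hβ : 0 ≤ β) (hγ : 0 ≤ γ) (hδ : 0 ≤ δ) (h : Low5 ε₂ α β γ δ) : ∀ ε₁ : List (ZMod 2),
    ∃ α' β' γ' δ' : ℝ, Low5 (ε₁ ++ ε₂) α' β' γ' δ' ∧ α - 3 * β ≤ α' - 3 * β' ∧ 0 ≤ β' ∧ β' ≤ β ∧
      0 ≤ γ' ∧ γ' ≤ γ * (1 / 2) ^ ε₁.count 1 ∧ 0 ≤ δ' ∧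
      δ' + 2 * γ' ≤ (1 / 2) ^ ε₁.count 1 * (δ + 2 * γ + 2 * γ * ε₁.count 1)
  | [] => ⟨α, β, γ, δ, h, le_rfl, hβ, le_rfl, hγ, by simp, hδ, by simp⟩
  | e :: ε₁ => by
    obtain ⟨α', β', γ', δ', i1, i2, i3, i4, i5, i6, i7, i8⟩ := low5_append h2 h3 hβ hγ hδ h ε₁
    refine ⟨_, _, _, _, low5_cons h2 h3 i3 i5 i1 e, by linarith, by linarith, by linarith,
      by linarith, ?_, ?_, ?_⟩
    · by_cases he : e = 1
      · rw [he, List.count_cons_self, pow_succ]
        linarith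
      · rw [List.count_cons_of_ne (fun hh => he hh)]
        linarith
    · split_ifs <;> linarith
    · by_cases he : e = 1
      · rw [if_pos he, he, List.count_cons_self, pow_succ]
        push_cast
        set x : ℝ := (1 / 2) ^ ε₁.count 1
        set c : ℝ := ((ε₁.count 1 : ℕ) : ℝ)
        nlinarith
      · rw [if_neg he, List.count_cons_of_ne (fun hh => he hh)]
        linarith

/-- comparison with the ideal chain -/
theorem prob5_start (h1 : LG1) (h3 : LG3) : ∀ (ε : List (ZMod 2)) (V : Type) [Fintype V]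
    [DecidableEq V] (M : Matrix V V (ZMod 2)) (μ st tw : V → ZMod 2), Rec5 M μ st tw →
    Hk ε.length (ck M) - 2 * sp3 M tw - 2 * ε.length * (1 / 2) ^ ones μ ≤ prob5 ε V M μ st tw
  | [], V, _, _, M, μ, st, tw, hR => by
    rw [prob5_nil]
    have h0 : (0 : ℝ) ≤ sp3 M tw := Nat.cast_nonneg _
    have h4 : Hk 0 (ck M) = if ck M = 0 then 1 else 0 := by
      unfold Hk
      by_cases h : ck M = 0
      · rw [if_pos (by omega), if_pos h, h]; simp [P_zero]
      · rw [if_neg (by omega), if_neg h]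
    simp only [List.length_nil, Nat.cast_zero, mul_zero, zero_mul, sub_zero]
    rw [h4]
    linarith
  | e :: ε, V, _, _, M, μ, st, tw, hR => by
    have hx : (0 : ℝ) < (1 / 2) ^ ones μ := by positivity
    by_cases hs : sp3 M tw = 0
    · rw [prob5_cons, le_div_iff₀ (by positivity)]
      have k1 : ∑ χ : ZMod 2, ∑ φ : V → ZMod 2, ∑ w : ZMod 2,
          (Hk ε.length (ck (ext M (cl e tw φ) (φ + (e • μ + χ • st)) w)) -
            2 * sp3 (ext M (cl e tw φ) (φ + (e • μ + χ • st)) w) (extv tw 0) -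
            2 * ε.length * (1 / 2) ^ ones (extv μ e)) ≤
          ∑ χ : ZMod 2, ∑ φ : V → ZMod 2, ∑ w : ZMod 2,
            prob5 ε (Option V) (ext M (cl e tw φ) (φ + (e • μ + χ • st)) w) (extv μ e)
              (extv st 0) (extv tw 0) :=
        sum_le_sum fun χ _ => sum_le_sum fun φ _ => sum_le_sum fun w _ =>
          prob5_start h1 h3 ε _ _ _ _ _ (rec5_ext hR φ e χ w)
      refine le_trans ?_ k1
      simp only [sum_sub_distrib, ← mul_sum, sum_const3]
      have j1 : ∑ χ : ZMod 2, ∑ φ : V → ZMod 2, ∑ w : ZMod 2,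
          Hk ε.length (ck (ext M (cl e tw φ) (φ + (e • μ + χ • st)) w)) =
          2 ^ (Fintype.card V + 2) * Hk (ε.length + 1) (ck M) := by
        have : ∀ χ : ZMod 2, ∑ φ : V → ZMod 2, ∑ w : ZMod 2,
            Hk ε.length (ck (ext M (cl e tw φ) (φ + (e • μ + χ • st)) w)) =
            2 ^ (Fintype.card V + 1) * Hk (ε.length + 1) (ck M) := by
          intro χ
          rw [h1 V M (e • μ + χ • st) tw e hR.one' hs (fun s => Hk ε.length s), Hk_step]
        rw [sum_congr rfl (fun χ _ => this χ), sum_const, card_univ, ZMod.card, nsmul_eq_mul]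
        push_cast
        ring
      have k3 : ∑ χ : ZMod 2, ∑ φ : V → ZMod 2, ∑ w : ZMod 2,
          (sp3 (ext M (cl e tw φ) (φ + (e • μ + χ • st)) w) (extv tw 0) : ℝ) ≤
          2 ^ (Fintype.card V + 2) * (1 / 2 : ℝ) ^ ones μ := by
        refine (sum_le_sum fun χ _ => h3 V M μ st tw e χ hR).trans (le_of_eq ?_)
        rw [sum_const, card_univ, ZMod.card, nsmul_eq_mul, hs]
        have k4 : (1 / 2 : ℝ) ^ (univ.filter fun a => μ a = 1).card = (1 / 2 : ℝ) ^ ones μ := rfl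
        rw [k4]
        push_cast
        ring
      rw [j1, ones_ext, hs]
      have k5 : (1 / 2 : ℝ) ^ ones μ * (if e = 1 then 1 / 2 else 1) ≤ (1 / 2 : ℝ) ^ ones μ := by
        split_ifs <;> linarith
      have k7 : (0 : ℝ) < 2 ^ (Fintype.card V + 2) := by positivity
      rw [List.length_cons]
      push_cast at k3 ⊢
      set y : ℝ := (1 / 2) ^ ones μ
      set z : ℝ := y * (if e = 1 then 1 / 2 else 1)
      set C : ℝ := 2 ^ (Fintype.card V + 2)
      have k8 : 2 * (ε.length : ℝ) * z ≤ 2 * ε.length * y :=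
        mul_le_mul_of_nonneg_left k5 (by positivity)
      have k9 := mul_le_mul_of_nonneg_left k8 k7.le
      nlinarith
    · have k0 := prob5_nonneg (e :: ε) V M μ st tw
      have k1 := Hk_le_one (e :: ε).length (ck M)
      have k2 : (1 : ℝ) ≤ sp3 M tw := by exact_mod_cast Nat.one_le_iff_ne_zero.2 hs
      have k3 : (0 : ℝ) ≤ 2 * ((e :: ε).length : ℝ) * (1 / 2) ^ ones μ := by positivity
      linarith

theorem low5_start (h1 : LG1) (h3 : LG3) (ε : List (ZMod 2)) :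
    Low5 ε eta (eta / 2 ^ ε.length) 2 (2 * ε.length) := by
  intro V _ _ M μ st tw hR
  refine le_trans ?_ (prob5_start h1 h3 ε V M μ st tw hR)
  have := Hk_ge ε.length (ck M)
  have e1 : eta * (1 - 2 ^ ck M / 2 ^ ε.length) = eta - eta / 2 ^ ε.length * 2 ^ ck M := by ring
  rw [e1] at this
  linarith

theorem ck_transpose (M : Matrix V V (ZMod 2)) : ck M.transpose = ck M := by
  have h1 := Vale.Agent.P017.R3.H916.finrank_range_transpose M
  have h2 := Vale.Agent.P017.R3.H916.finrank_range M.transpose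
  omega

theorem sp3_le (M : Matrix V V (ZMod 2)) (tw : V → ZMod 2) : (sp3 M tw : ℝ) ≤ 2 ^ ck M := by
  have h1 : sp3 M tw ≤ Nat.card (LinearMap.ker (Matrix.mulVecLin M.transpose)) := by
    classical
    rw [Nat.card_eq_fintype_card]
    unfold sp3
    rw [← Fintype.card_coe]
    refine Fintype.card_le_of_injective
      (fun x => (⟨x.1, ?_⟩ : LinearMap.ker (Matrix.mulVecLin M.transpose))) ?_
    · have := (mem_filter.1 x.2).2.2.1
      rw [LinearMap.mem_ker, Matrix.mulVecLin_apply, Matrix.mulVec_transpose]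
      exact this
    · intro x y hxy
      exact Subtype.ext
        (congrArg (fun z : LinearMap.ker (Matrix.mulVecLin M.transpose) => z.1) hxy)
  have h2 : Nat.card (LinearMap.ker (Matrix.mulVecLin M.transpose)) = 2 ^ ck M := by
    rw [← ck_transpose]
    unfold ck
    rw [Module.natCard_eq_pow_finrank (K := ZMod 2)]
    simp
  rw [h2] at h1
  exact_mod_cast h1

/-- the bound for a concatenation -/
theorem prob5_app (h1 : LG1) (h2 : LG2) (h3 : LG3) (ε₁ ε₂ : List (ZMod 2))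
    (M : Matrix V V (ZMod 2)) (μ st tw : V → ZMod 2) (hR : Rec5 M μ st tw) :
    eta - 3 / 2 ^ ε₂.length - 1 / 2 ^ ε₂.length * 2 ^ ck M -
      (1 / 2) ^ ε₁.count 1 * (2 * 2 ^ ck M + 2 * ε₂.length + 4 + 4 * ε₁.count 1) ≤
      prob5 (ε₁ ++ ε₂) V M μ st tw := by
  have hb : (0 : ℝ) ≤ eta / 2 ^ ε₂.length := div_nonneg eta_nonneg (by positivity)
  have hb1 : eta / 2 ^ ε₂.length ≤ 1 / 2 ^ ε₂.length :=
    div_le_div_of_nonneg_right eta_le_one (by positivity)
  obtain ⟨α', β', γ', δ', i1, i2, i3, i4, i5, i6, i7, i8⟩ :=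
    low5_append h2 h3 hb (by norm_num) (by positivity) (low5_start h1 h3 ε₂) ε₁
  refine le_trans ?_ (i1 V M μ st tw hR)
  have hs := sp3_le M tw
  have hs0 : (0 : ℝ) ≤ sp3 M tw := Nat.cast_nonneg _
  have hk : (0 : ℝ) < 2 ^ ck M := by positivity
  have hy : (1 / 2 : ℝ) ^ ones μ ≤ 1 := pow_le_one₀ (by norm_num) (by norm_num)
  have hy0 : (0 : ℝ) < (1 / 2 : ℝ) ^ ones μ := by positivity
  have j1 : β' * 2 ^ ck M ≤ 1 / 2 ^ ε₂.length * 2 ^ ck M :=
    mul_le_mul_of_nonneg_right (i4.trans hb1) hk.le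
  have j2 : γ' * sp3 M tw ≤ 2 * (1 / 2) ^ ε₁.count 1 * 2 ^ ck M :=
    mul_le_mul i6 hs hs0 (by positivity)
  have j3 : δ' * (1 / 2) ^ ones μ ≤ δ' := mul_le_of_le_one_right i7 hy
  have j4 : (3 : ℝ) / 2 ^ ε₂.length = 3 * (1 / 2 ^ ε₂.length) := by ring
  rw [j4]
  nlinarith

/-- (L') from the three facts of linear algebra -/
theorem stmtRM5_of (h1 : LG1) (h2 : LG2) (h3 : LG3) : StmtRM5 := by
  intro η B hη
  have hd : 0 < (eta - η) / 2 := by linarith
  obtain ⟨k, hk⟩ : ∃ k : ℕ, (1 / 2 : ℝ) ^ k < (eta - η) / 2 / (3 + |B|) :=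
    exists_pow_lt_of_lt_one (by positivity) (by norm_num)
  have hk' : (3 + |B|) * (1 / 2) ^ k ≤ (eta - η) / 2 := by
    rw [lt_div_iff₀ (by positivity)] at hk
    linarith
  have ht : Filter.Tendsto (fun c : ℕ => (2 * |B| + 2 * k + 4) * (1 / 2 : ℝ) ^ c +
      4 * (c * (1 / 2 : ℝ) ^ c)) Filter.atTop (nhds 0) := by
    have t1 : Filter.Tendsto (fun c : ℕ => (1 / 2 : ℝ) ^ c) Filter.atTop (nhds 0) :=
      tendsto_pow_atTop_nhds_zero_of_lt_one (by norm_num) (by norm_num)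
    have t2 : Filter.Tendsto (fun c : ℕ => (c : ℝ) * (1 / 2 : ℝ) ^ c) Filter.atTop (nhds 0) :=
      tendsto_self_mul_const_pow_of_lt_one (by norm_num) (by norm_num)
    have t3 := (t1.const_mul (2 * |B| + 2 * k + 4)).add (t2.const_mul 4)
    simpa using t3
  obtain ⟨h0, hh0⟩ := Filter.eventually_atTop.1 (ht.eventually (gt_mem_nhds hd))
  refine ⟨max h0 1, k, ?_⟩
  intro ε V W _ _ _ _ A μ st tw hR hc hB
  set ε₁ := ε.take (ε.length - k) with he1
  set ε₂ := ε.drop (ε.length - k) with he2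
  have happ : ε = ε₁ ++ ε₂ := (List.take_append_drop _ _).symm
  have hl1 : 1 ≤ ε.length - k := by
    have a1 : 1 ≤ ε₁.count 1 := le_trans (le_max_right _ _) hc
    have a2 : ε₁.count 1 ≤ ε₁.length := List.count_le_length
    have a3 : ε₁.length ≤ ε.length - k := by
      rw [he1, List.length_take]; exact min_le_left _ _
    omega
  have hl2 : ε₂.length = k := by
    rw [he2, List.length_drop]; omega
  have hc0 := hh0 (ε₁.count 1) (le_trans (le_max_left _ _) hc)
  set c := ε₁.count 1 with hcdef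
  have key : ∀ u : W,
      (eta - 3 * (1 / 2) ^ k - (1 / 2) ^ c * (2 * k + 4 + 4 * c)) -
        ((1 / 2) ^ k + 2 * (1 / 2) ^ c) * (2 : ℝ) ^ ck (A u) ≤
      prob5 ε V (A u) μ st tw := by
    intro u
    have := prob5_app h1 h2 h3 ε₁ ε₂ (A u) μ st tw (hR u)
    rw [← happ, hl2, ← hcdef] at this
    have e1 : (1 : ℝ) / 2 ^ k = (1 / 2) ^ k := by rw [one_div_pow]
    have e2 : (3 : ℝ) / 2 ^ k = 3 * (1 / 2) ^ k := by rw [← e1]; ring
    rw [e1, e2] at this
    refine le_trans (le_of_eq ?_) this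
    ring
  have hW : (0 : ℝ) < Fintype.card W := by exact_mod_cast Fintype.card_pos
  have hsum := sum_le_sum (s := (univ : Finset W)) fun u _ => key u
  rw [sum_sub_distrib, sum_const, card_univ, ← mul_sum, nsmul_eq_mul] at hsum
  rw [le_div_iff₀ hW]
  refine le_trans ?_ hsum
  rw [div_le_iff₀ hW] at hB
  have hB' : ∑ u : W, (2 : ℝ) ^ ck (A u) ≤ |B| * Fintype.card W :=
    hB.trans (mul_le_mul_of_nonneg_right (le_abs_self B) hW.le)
  have hq : (0 : ℝ) ≤ (1 / 2) ^ k + 2 * (1 / 2) ^ c := by positivity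
  have h7 := mul_le_mul_of_nonneg_left hB' hq
  have h8 : η ≤ (eta - 3 * (1 / 2) ^ k - (1 / 2) ^ c * (2 * k + 4 + 4 * c)) -
      ((1 / 2) ^ k + 2 * (1 / 2) ^ c) * |B| := by nlinarith
  have h9 := mul_le_mul_of_nonneg_right h8 hW.le
  nlinarith

/-! ### The case `st = 0` -/

theorem prob5_zero : ∀ (ε : List (ZMod 2)) (V : Type) [Fintype V] [DecidableEq V]
    (M : Matrix V V (ZMod 2)) (μ tw : V → ZMod 2), prob5 ε V M μ 0 tw = prob3 ε V M μ tw
  | [], V, _, _, M, μ, tw => by rw [prob5_nil, prob3]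
  | e :: ε, V, _, _, M, μ, tw => by
    have h0 : extv (0 : V → ZMod 2) 0 = 0 := by
      funext a
      rcases a with _ | a <;> rfl
    rw [prob5_cons, prob3]
    have : ∀ χ : ZMod 2, ∑ φ : V → ZMod 2, ∑ w : ZMod 2,
        prob5 ε (Option V) (ext M (cl e tw φ) (φ + (e • μ + χ • (0 : V → ZMod 2))) w) (extv μ e)
          (extv 0 0) (extv tw 0) =
        ∑ φ : V → ZMod 2, ∑ w : ZMod 2,
          prob3 ε (Option V) (ext M (cl e tw φ) (φ + e • μ) w) (extv μ e) (extv tw 0) := by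
      intro χ
      rw [h0]
      refine sum_congr rfl fun φ _ => sum_congr rfl fun w _ => ?_
      rw [prob5_zero, smul_zero, add_zero]
    rw [sum_congr rfl (fun χ _ => this χ), sum_const, card_univ, ZMod.card, nsmul_eq_mul,
      pow_succ _ (Fintype.card V + 1)]
    push_cast
    rw [mul_comm (2 : ℝ), mul_div_mul_right _ _ (by norm_num)]

/-- (L4) from (L') -/
theorem stmtRM3_of (h : StmtRM5) : StmtRM3 := by
  intro η B hη
  obtain ⟨h', k, H⟩ := h η B hη
  refine ⟨h', k, ?_⟩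
  intro ε V W _ _ _ _ A μ st hR hc hB
  have h1 := H ε V W A μ 0 st ?_ hc hB
  · simpa only [prob5_zero] using h1
  · intro u
    have hu := hR u
    exact ⟨fun a b hab _ _ ha hb => hu.recip a b hab ha hb, hu.row,
      fun a b ha => absurd (show (0 : ZMod 2) = 1 from ha) z1, hu.one,
      fun a ha => absurd (show (0 : ZMod 2) = 1 from ha) z1, hu.zero,
      fun a ha => absurd (show (0 : ZMod 2) = 1 from ha) z1⟩

end Vale.Agent.P017.R4.H160
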